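import Vale.Agent.P275CC.Ev

/-!
# P275, line bundles on a quotient space given by local semi-invariants
-/

open Set Topology Filter Function
open P275CC

noncomputable section

namespace Vale.Agent.P275CH

variable {E Q E' Q' : Type} [TopologicalSpace E] [TopologicalSpace Q] [TopologicalSpace E']
  [TopologicalSpace Q']

/-- `β` is a nowhere vanishing semi-invariant on `O`; `T a b c` means that `a` is the image of
`b` under a group element on which the character has the value `c`. -/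
structure Sem (T : E → E → ℂ → Prop) (O : Set E) (β : E → ℂ) : Prop where
  op : IsOpen O
  ct : ContinuousOn β O
  nz : ∀ a ∈ O, β a ≠ 0
  law : ∀ a b c, T a b c → b ∈ O → a ∈ O ∧ β a * c = β b

/-- a quotient map with enough local semi-invariants -/
structure Loc (π : E → Q) (T : E → E → ℂ → Prop) : Prop where
  oq : IsOpenQuotientMap π
  fib : ∀ a b, π a = π b → ∃ c, T a b c
  ex : ∀ x, ∃ O β, x ∈ O ∧ Sem T O β

variable {π : E → Q} {T T₁ T₂ : E → E → ℂ → Prop} {π' : E' → Q'} {T' : E' → E' → ℂ → Prop}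
  {O O' : Set E} {β β' φ : E → ℂ} {a : E}

theorem Sem.mul (h : Sem T₁ O β) (h' : Sem T₂ O' β')
    (e : ∀ a b c, T a b c → ∃ c₁ c₂, T₁ a b c₁ ∧ T₂ a b c₂ ∧ c = c₁ * c₂) :
    Sem T (O ∩ O') fun a => β a * β' a := by
  refine ⟨h.op.inter h'.op, (h.ct.mono inter_subset_left).mul (h'.ct.mono inter_subset_right),
    fun a ha => mul_ne_zero (h.nz a ha.1) (h'.nz a ha.2), fun a b c hc hb => ?_⟩
  obtain ⟨c₁, c₂, h1, h2, rfl⟩ := e a b c hc
  obtain ⟨k1, k2⟩ := h.law a b _ h1 hb.1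
  obtain ⟨k3, k4⟩ := h'.law a b _ h2 hb.2
  exact ⟨⟨k1, k3⟩, by rw [← k2, ← k4]; ring⟩

theorem Sem.comp (h : Sem T O β) {G : E' → E} (hG : Continuous G)
    (e : ∀ a b c, T' a b c → T (G a) (G b) c) : Sem T' (G ⁻¹' O) fun a => β (G a) :=
  ⟨h.op.preimage hG, h.ct.comp hG.continuousOn fun _ k => k, fun _ k => h.nz _ k,
    fun a b c k => h.law _ _ c (e a b c k)⟩

namespace Loc

variable (h : Loc π T)
include h

/-- a point of the fibre -/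
def rp (x : Q) : E := surjInv h.oq.surjective x

theorem π_rp (x : Q) : π (h.rp x) = x := surjInv_eq _ x

theorem mem_img (k : Sem T O β) : π a ∈ π '' O ↔ a ∈ O := by
  refine ⟨fun ⟨b, hb, e⟩ => ?_, fun ha => ⟨a, ha, rfl⟩⟩
  obtain ⟨c, hc⟩ := h.fib a b e.symm
  exact (k.law a b c hc hb).1

theorem ratio (k : Sem T O β) (k' : Sem T O' β') (ha : a ∈ O) (ha' : a ∈ O') :
    β (h.rp (π a)) / β' (h.rp (π a)) = β a / β' a := by
  obtain ⟨c, hc⟩ := h.fib _ a (h.π_rp _)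
  obtain ⟨-, k2⟩ := k.law _ a c hc ha
  obtain ⟨-, k4⟩ := k'.law _ a c hc ha'
  have : c ≠ 0 := fun e => k.nz a ha (by rw [← k2, e, mul_zero])
  rw [← k2, ← k4, mul_div_mul_right _ _ this]

theorem ctOn {t : Q → ℂ} {u : E → ℂ} (hO : IsOpen O) (hu : ContinuousOn u O)
    (e : ∀ a ∈ O, t (π a) = u a) : ContinuousOn t (π '' O) := by
  rintro _ ⟨a, ha, rfl⟩
  refine (h.oq.continuousAt_comp_iff.1 ?_).continuousWithinAt
  exact (hu.continuousAt (hO.mem_nhds ha)).congr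
    (mem_of_superset (hO.mem_nhds ha) fun b hb => (e b hb).symm)

theorem img_inter (k' : Sem T O' β') : π '' O ∩ π '' O' = π '' (O ∩ O') := by
  refine subset_antisymm ?_ (image_inter_subset _ _ _)
  rintro _ ⟨⟨a, ha, rfl⟩, h'⟩
  exact ⟨a, ⟨ha, (h.mem_img k').1 h'⟩, rfl⟩

/-- the associated line bundle -/
def lb : LB Q where
  ι := {p : Set E × (E → ℂ) // Sem T p.1 p.2}
  U p := π '' p.1.1
  op p := h.oq.isOpenMap _ p.2.op
  cov x := let ⟨O, β, k, k'⟩ := h.ex (h.rp x); ⟨⟨(O, β), k'⟩, _, k, h.π_rp x⟩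
  g p q x := p.1.2 (h.rp x) / q.1.2 (h.rp x)
  ct p q := by
    rw [h.img_inter q.2]
    exact h.ctOn (p.2.op.inter q.2.op) ((p.2.ct.mono inter_subset_left).div
      (q.2.ct.mono inter_subset_right) fun a ha => q.2.nz a ha.2)
      fun a ha => h.ratio p.2 q.2 ha.1 ha.2
  id p x hx := div_self (p.2.nz _ ((h.mem_img p.2).1 ((h.π_rp x).symm ▸ hx)))
  cc p q l x _ hq _ :=
    div_mul_div_cancel₀ (q.2.nz _ ((h.mem_img q.2).1 ((h.π_rp x).symm ▸ hq)))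

theorem mem_U {p : h.lb.ι} : π a ∈ h.lb.U p ↔ a ∈ p.1.1 := h.mem_img p.2

theorem lb_g {p q : h.lb.ι} (hp : π a ∈ h.lb.U p) (hq : π a ∈ h.lb.U q) :
    h.lb.g p q (π a) = p.1.2 a / q.1.2 a := h.ratio p.2 q.2 (h.mem_U.1 hp) (h.mem_U.1 hq)

/-- pull-back along an equivariant map -/
theorem iso_pb (h' : Loc π' T') {G : E' → E} (hG : Continuous G) (g : C(Q', Q))
    (e : ∀ a, g (π' a) = π (G a)) (e' : ∀ a b c, T' a b c → T (G a) (G b) c) :
    LB.Iso h'.lb (h.lb.pb g) := by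
  have key : ∀ (c : h.lb.ι) a, g (π' a) ∈ h.lb.U c → G a ∈ c.1.1 := fun c a k =>
    h.mem_U.1 (e a ▸ k)
  refine LB.iso_ref _ _ (fun c : h.lb.ι => g ⁻¹' h.lb.U c)
    (fun c => ⟨(G ⁻¹' c.1.1, fun a => c.1.2 (G a)), c.2.comp hG e'⟩) (fun c => c)
    (fun c => (h.lb.op c).preimage g.continuous) (fun x => h.lb.cov (g x)) (fun c x k => ?_)
    (fun _ => subset_rfl) fun c c' x k k' => ?_
  · obtain ⟨a, rfl⟩ := h'.oq.surjective x
    exact h'.mem_U.2 (key c a k)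
  · obtain ⟨a, rfl⟩ := h'.oq.surjective x
    refine (h'.lb_g (h'.mem_U.2 (key c a k)) (h'.mem_U.2 (key c' a k'))).trans ?_
    change _ = h.lb.g c c' (g (π' a))
    rw [e, h.lb_g (e a ▸ k) (e a ▸ k')]

/-- the product of two characters -/
theorem iso_mul (h₁ : Loc π T₁) (h₂ : Loc π T₂)
    (e : ∀ a b c, T a b c → ∃ c₁ c₂, T₁ a b c₁ ∧ T₂ a b c₂ ∧ c = c₁ * c₂) :
    LB.Iso h.lb (h₁.lb.mul h₂.lb) := by
  refine LB.iso_ref _ _ (fun c : (h₁.lb.mul h₂.lb).ι => (h₁.lb.mul h₂.lb).U c)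
    (fun c => ⟨(c.1.1.1 ∩ c.2.1.1, fun a => c.1.1.2 a * c.2.1.2 a), c.1.2.mul c.2.2 e⟩)
    (fun c => c) (h₁.lb.mul h₂.lb).op (h₁.lb.mul h₂.lb).cov (fun c x k => ?_) (fun _ => subset_rfl)
    fun c c' x k k' => ?_
  · obtain ⟨a, rfl⟩ := h.oq.surjective x
    exact h.mem_U.2 ⟨h₁.mem_U.1 k.1, h₂.mem_U.1 k.2⟩
  · obtain ⟨a, rfl⟩ := h.oq.surjective x
    refine (h.lb_g (h.mem_U.2 ?_) (h.mem_U.2 ?_)).trans ?_
    · exact ⟨h₁.mem_U.1 k.1, h₂.mem_U.1 k.2⟩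
    · exact ⟨h₁.mem_U.1 k'.1, h₂.mem_U.1 k'.2⟩
    change _ = h₁.lb.g c.1 c'.1 (π a) * h₂.lb.g c.2 c'.2 (π a)
    rw [h₁.lb_g k.1 k'.1, h₂.lb_g k.2 k'.2, div_mul_div_comm]

/-- a global semi-invariant function is a section -/
theorem ex_sec (hφ : Continuous φ) (e : ∀ a b c, T a b c → φ a = c * φ b) :
    ∃ s, h.lb.Sec univ s ∧ h.lb.NZ s = π '' {a | φ a ≠ 0} := by
  have key : ∀ (p : h.lb.ι), ∀ a ∈ p.1.1,
      p.1.2 (h.rp (π a)) * φ (h.rp (π a)) = p.1.2 a * φ a := fun p a ha => by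
    obtain ⟨c, hc⟩ := h.fib _ a (h.π_rp _)
    rw [e _ _ c hc, ← (p.2.law _ a c hc ha).2, mul_assoc]
  refine ⟨fun p x => p.1.2 (h.rp x) * φ (h.rp x), ⟨fun p => ?_, fun p q x _ hq _ => ?_⟩, ?_⟩
  · rw [inter_univ]
    exact h.ctOn p.2.op (p.2.ct.mul hφ.continuousOn) (key p)
  · change _ = _ / _ * _
    rw [← mul_assoc, div_mul_cancel₀ _ (q.2.nz _ (h.mem_U.1 ((h.π_rp x).symm ▸ hq)))]
  · ext x
    constructor
    · rintro ⟨p, -, k⟩
      exact ⟨_, right_ne_zero_of_mul k, h.π_rp x⟩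
    · rintro ⟨a, ha, rfl⟩
      obtain ⟨p, hp⟩ := h.lb.cov (π a)
      refine ⟨p, hp, ?_⟩
      beta_reduce
      rw [key p a (h.mem_U.1 hp)]
      exact mul_ne_zero (p.2.nz a (h.mem_U.1 hp)) ha

theorem triv (e : ∀ a b c, T a b c → c = 1) : h.lb.Triv := by
  obtain ⟨s, k, k'⟩ := h.ex_sec (φ := fun _ => 1) continuous_const fun a b c hc => by
    rw [e a b c hc, one_mul]
  refine ⟨s, k, fun i x hx => k.ne ?_ hx⟩
  rw [k']
  exact ⟨_, one_ne_zero, h.π_rp x⟩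

/-- projective subspaces -/
theorem pfib {r e : ℕ} {q : (Fin (r + 1) → ℂ) → E} (hq : ContinuousOn q {0}ᶜ)
    (h1 : ∀ v w, v ≠ 0 → w ≠ 0 → (π (q v) = π (q w) ↔ ∃ c : ℂ, v = c • w))
    (h2 : ∀ v (c : ℂ), v ≠ 0 → c ≠ 0 → T (q v) (q (c • v)) (c ^ e)) :
    PFib h.lb ((fun v => π (q v)) '' {0}ᶜ) r e := by
  refine ⟨fun v => π (q v), fun p v => p.1.2 (q v), h.oq.continuous.comp_continuousOn hq, rfl, h1,
    fun p => p.2.ct.comp (hq.mono inter_subset_left) fun v k => h.mem_U.1 k.2,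
    fun p v _ k => p.2.nz _ (h.mem_U.1 k), fun p v c hv hc k => ?_, fun p p' v _ k k' => ?_⟩
  · have e1 := (h1 (c • v) v (smul_ne_zero hc hv) hv).2 ⟨c, rfl⟩
    exact (p.2.law _ _ _ (h2 v c hv hc) (h.mem_U.1 (e1.symm ▸ k))).2.symm.trans (mul_comm _ _)
  · rw [h.lb_g k k', div_mul_cancel₀ _ (p'.2.nz _ (h.mem_U.1 k'))]

end Loc

end Vale.Agent.P275CH
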