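import Vale.Agent.P275CH.Defs
import Vale.Agent.P275WB.Main
import Vale.Agent.P275MC.Ex
import Vale.Agent.P275AR.Lc
import Vale.Agent.P275AR.Dua
import Vale.Agent.P275LO.Der

/-!
# P275, descent of curious hard Lefschetz: the algebra
-/

open scoped Manifold ContDiff
open Set Topology Function TopologicalSpace
open Vale.Agent.P272.K Vale.Agent.P281Z.Hg Vale.Agent.P275MC Vale.Agent.P275FM Vale.Agent.P275AR
open Vale.Agent.P281Z (HolM Emb)
open Vale.Agent.P275RG (Cp Alg)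
open Vale.Agent.P275B (Mn Vr)
open Vale.Agent.P275LO (HC HD pc pc_pc pc_mem)
open Vale.Agent.P275WB (WT_of_low)
open P275CC (LB PFib Nc)
open P275S (th KG)
open P275LF (CHL)

noncomputable section

namespace Vale.Agent.P275CH

/-- the lowest coefficient in a projective bundle has the right weight -/
theorem tri_low {A B : Type} [Ring A] [Algebra ℂ A] [Ring B] [Algebra ℂ B] {N : ℕ} {φ : A → B}
    {G : B →ₗ[ℂ] A} {ζ : B} {W : ℤ → Submodule ℂ A} {W' : ℤ → Submodule ℂ B}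
    (hφ : ∀ w, ∀ a ∈ W w, φ a ∈ W' w) (hG : ∀ w, ∀ b ∈ W' (w + 2 * N), G b ∈ W w)
    (hζ : ∀ w, ∀ b ∈ W' w, b * ζ ∈ W' (w + 2)) (low : ∀ a, ∀ k < N, G (φ a * ζ ^ k) = 0)
    (top : ∀ w a, G (φ a * ζ ^ N) ∈ W w → a ∈ W w) {w : ℤ} (m : ℕ) (hm : m ≤ N)
    (z : Fin (m + 1) → A) (h : ∑ k, φ (z k) * ζ ^ (k : ℕ) ∈ W' w) : z 0 ∈ W w := by
  have pw : ∀ (k : ℕ) (w w' : ℤ), w' = w + 2 * k → ∀ b ∈ W' w, b * ζ ^ k ∈ W' w' := by
    intro k
    induction k with
    | zero => exact fun w w' e b hb => by simpa [e] using hb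
    | succ k ih =>
      intro w w' e b hb
      rw [pow_succ, ← mul_assoc, show w' = w + 2 * k + 2 by rw [e]; push_cast; ring]
      exact hζ _ _ (ih w _ rfl b hb)
  have key : ∀ m ≤ N, ∀ z : Fin (m + 1) → A, ∑ k, φ (z k) * ζ ^ (k : ℕ) ∈ W' w →
      z (Fin.last m) ∈ W (w - 2 * m) := fun m hm z h => by
    have h1 := hG (w - 2 * m) _ (pw (N - m) w _ (by push_cast [hm]; ring) _ h)
    rw [Finset.sum_mul, map_sum, Fin.sum_univ_castSucc, Finset.sum_eq_zero fun k _ => by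
      rw [mul_assoc, ← pow_add]
      exact low _ _ (by have := k.2; simp only [Fin.val_castSucc]; omega), zero_add, mul_assoc,
      ← pow_add, Fin.val_last, Nat.add_sub_cancel' hm] at h1
    exact top _ _ h1
  induction m with
  | zero => simpa using key 0 hm z h
  | succ m ih =>
    refine ih (by omega) (fun k => z k.castSucc) ?_
    rw [Fin.sum_univ_castSucc] at h
    have := sub_mem h (pw (m + 1) _ w (by push_cast; ring) _
      (hφ _ _ (key _ hm z (by rwa [Fin.sum_univ_castSucc]))))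
    rwa [Fin.val_last, add_sub_cancel_right] at this

section gy

variable {a b c : ℕ} {U : Mn a} {V : Mn b} {W : Mn c} {f : C(U.X, V.X)} {m n : ℤ}

instance (U : Mn a) : Nc U.X := ⟨U.ch.locallyCompactSpace, inferInstance, inferInstance⟩

theorem cm {x : HC U.X} (h : x ∈ HD U.X m) (e : Even m) (y : HC U.X) : x * y = y * x :=
  P275S.commute_of_even h e y

theorem inv0 {u z : HC U.X} (hu : u ∈ HD U.X 0) (h : z * u = 1) :
    ∃ z ∈ HD U.X 0, z * u = 1 :=
  ⟨_, KG.pr_mem_deg 0 z, (P275CC.Th.pr_mul_right (τ := th) (i := 0) z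
    ((P275S.th_pr_iff _ _ _).2 hu) (zero_add 0)).symm.trans ((congrArg _ h).trans (th.pr_one _))⟩

/-- the Gysin map -/
def gy (hf : HolM a b f) (hp : IsProperMap f) : HC U.X →ₗ[ℂ] HC V.X :=
  gys (act_univ (smo_of_hol hf) hp)

variable (hf : HolM a b f) (hp : IsProperMap f)

theorem gy_mul (x : HC U.X) (y : HC V.X) : gy hf hp (x * pc f y) = gy hf hp x * y :=
  gys_mul _ x y

theorem gy_mem {x : HC U.X} (h : x ∈ HD U.X m) (e : m + 2 * b = n + 2 * a) :
    gy hf hp x ∈ HD V.X n := gys_mem _ h e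

theorem gy_deg {x : HC U.X} (h : gy hf hp x ∈ HD V.X n) (e : 2 * (b : ℤ) = n + 2 * a) :
    ∃ y ∈ HD U.X 0, gy hf hp y = gy hf hp x := by
  refine ⟨_, KG.pr_mem_deg 0 x, H_ext (d := b) fun y => ?_⟩
  rw [← (mem_Hd_iff (n := (a + a : ℕ)) (by push_cast; omega)).1 h y, gy, pd_gys, pd_gys,
    pd_pr (zero_add _), prH_pb]

/-- classes which vanish off a closed submanifold -/
theorem gy_ex (he : IsClosedEmbedding f) {W : Mn b} {j : C(W.X, V.X)}
    (hj : Emb b b j (range f)ᶜ) {x : HC V.X} (h : x ∈ HD V.X n) (e : 2 * (b : ℤ) = n + 2 * a)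
    (h0 : pc j x = 0) : ∃ y ∈ HD U.X 0, gy hf he.isProperMap y = x := by
  obtain ⟨y, rfl⟩ := (gex_M (smo_of_hol hf) he (oe_of_emb hj) hj.rng (ori_of_emb hj)
    (act_univ _ he.isProperMap) x).1 h0
  exact gy_deg hf _ h e

end gy

section wt

variable {a b : ℕ} {U : Vr a} {V : Vr b} {f : C(U.X, V.X)} {w w' : ℤ} {x y : HC U.X}

theorem WT_gy (h : Alg U.cp V.cp f) (hp : IsProperMap f) (e : w + 2 * b = w' + 2 * a)
    (hx : x ∈ WT U.cp w) : gy (U := U.toMn) (V := V.toMn) h.hol hp x ∈ WT V.cp w' :=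
  WT_of_low V.cp (pd_gys _) (grd_pb h hp _).low (by omega) hx

theorem WT_mul (hy : y ∈ HD U.X 0) (hx : x ∈ WT U.cp w) : x * y ∈ WT U.cp w := by
  obtain ⟨φ, rfl⟩ := P275S.exists_lc hy
  have k : Act (univ : Set U.X) univ (wd (P275KU.fn (smC_lc a φ))) :=
    act_wd (dd_lc φ) (P275KU.pr_even (P275KU.fn_Dg _) (by decide))
  have e : hm a univ (P275S.lc (X := TopCat.of U.X) φ) = k.map :=
    (congrArg _ (cl_lc φ)).symm.trans (hm_cl (P275KU.fn_Dg _) _)
  refine mem_WT.2 fun z hz => (pd_mul x _ z).trans (mem_WT.1 hx _ ?_)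
  rw [e]
  exact (grd_lc U.cp φ.isLocallyConstant _ k).low.map_flt (gr_wt _) (add_zero _).le hz

theorem WT_lift {V : Vr a} {j : C(U.X, V.X)} {S : Set V.X} (h : Alg U.cp V.cp j)
    (hj : Emb a a j S) (z : HC V.X) (hx : pc j z ∈ WT U.cp w) :
    ∃ z' ∈ WT V.cp w, pc j z' = pc j z := by
  set n := (((a + a : ℕ) : ℤ) - w).toNat
  have g := grd_opn hj h
  have e := pd_ext (oe_of_emb hj) (ori_of_emb hj)
  refine ⟨(pd a V.X).symm (pd a V.X z ∘ₗ (1 - ∑ q ∈ Finset.range n, wt V.cp q)),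
    mem_WT.2 fun x k => ?_, H_ext (d := a) fun x => ?_⟩
  · rw [LinearEquiv.apply_symm_apply, LinearMap.comp_apply, LinearMap.sub_apply,
      LinearMap.sum_apply, (gr_wt V.cp).sum_flt k, Module.End.one_apply, sub_self, map_zero]
  · refine (e _ x).trans ?_
    have := mem_WT.1 hx _ (sum_mem (t := Finset.range n) fun q k =>
      (gr_wt U.cp).w_flt (Finset.mem_range.1 k) x)
    refine Eq.trans ?_ (sub_zero _)
    rw [← this, LinearEquiv.apply_symm_apply]
    refine Eq.trans ?_ (congrArg₂ _ (e z _).symm (e z _).symm)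
    simp only [LinearMap.comp_apply, LinearMap.sub_apply, Module.End.one_apply, map_sub,
      LinearMap.sum_apply, map_sum, g.comm (gr_wt _) (gr_wt _) (add_zero _).symm]

end wt

end Vale.Agent.P275CH
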