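import Vale.Agent.P275CH.Lb
import Vale.Agent.P275B.Flat
import Vale.Agent.P275MC.Gy
import Vale.Agent.P275S.Th
import Vale.Agent.P275BC.Mat

/-!
# P275, descent of curious hard Lefschetz: the interfaces
-/

open scoped Manifold ContDiff
open Set Topology Function CategoryTheory
open Vale.Agent.P272.K Vale.Agent.P281Z.Hg Vale.Agent.P275MC Vale.Agent.P275FM Vale.Agent.P275AR
open Vale.Agent.P281Z (HolM Emb Sbm)
open Vale.Agent.P275RG (Cp Alg)
open Vale.Agent.P275B (Mn Vr)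
open P275CC (LB PFib Nc)
open P275S (H Hd th)
open P275BC (UT)

noncomputable section

namespace Vale.Agent.P275CH

section wt

variable {d : ℕ} {M : Type} [TopologicalSpace M] [ChartedSpace (Cm d) M]
  [IsManifold 𝓘(ℂ, Cm d) ω M] [T2Space M] [SecondCountableTopology M]

/-- the weight filtration on the cohomology ring of a variety -/
def WT (c : Cp d M) (w : ℤ) : Submodule ℂ (H ℂ (TopCat.of M)) :=
  (flt (wt c) ((d + d : ℕ) - w).toNat).dualAnnihilator.comap (pd d M).toLinearMap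

theorem mem_WT {c : Cp d M} {w : ℤ} {a : H ℂ (TopCat.of M)} :
    a ∈ WT c w ↔ ∀ x ∈ flt (wt c) ((d + d : ℕ) - w).toNat, pd d M a x = 0 :=
  Submodule.mem_dualAnnihilator _

end wt

/-- **PUSH**: algebraic maps respect the weights -/
def PUSH : Prop := ∀ (n m : ℕ) (U : Vr n) (V : Vr m) (f : C(U.X, V.X)), Alg U.cp V.cp f →
  ∀ w, ∀ a ∈ WT V.cp w, P275S.pb (TopCat.ofHom f) a ∈ WT U.cp w

/-- in degree `k` the class `Δ` spans the cohomology of the fibres of `π` -/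
def Spn {X F : Type} [TopologicalSpace F] (π : F → X) (k : ℤ) (Δ : H ℂ (TopCat.of F)) : Prop :=
  ∀ x, ∃ (Z : TopCat.{0}) (φ : Z ⟶ TopCat.of F), IsInducing φ ∧ range φ = π ⁻¹' {x} ∧
    ∀ z ∈ Hd ℂ Z k, ∃ c : ℂ, z = c • P275S.pb φ Δ

/-- **LOC**: the integral along the fibres of a class which spans the top degree is a unit -/
def LOC : Prop := ∀ (d N D : ℕ) (X : Mn d) (F : Mn D) (π : F.X → X.X) (hπ : Smo D d π)
  (h : Act (univ : Set X.X) univ (pb hπ)) (Δ : H ℂ (TopCat.of F.X)), D = d + N → HolM D d π →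
  IsProperMap π → (∀ x, ∃ y, π y = x ∧ Sbm D d π y) → Δ ∈ Hd ℂ (TopCat.of F.X) (2 * N) →
  Spn π (2 * N) Δ → IsUnit (gys h Δ)

/-- the positive roots -/
abbrev Pos (n : ℕ) : Type := {p : Fin n × Fin n // p.1 < p.2}

/-- `g = h g'` with `h` upper triangular, and `c` is the value of the root at `h` -/
def TG {n : ℕ} (a b : Fin n) (g g' : GL (Fin n) ℂ) (c : ℂ) : Prop :=
  ∃ h : Matrix (Fin n) (Fin n) ℂ, UT h ∧ g.1 = h * g'.1 ∧ c = h a a / h b b

/-- **FLAG**: the flag variety is compact, and the product of the positive roots spans its top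
cohomology -/
def FLAG : Prop := ∀ n : ℕ, ∃ (Z : Type) (_ : TopologicalSpace Z) (_ : Nc Z)
  (π : GL (Fin n) ℂ → Z) (hL : ∀ a b, Loc π (TG a b)) (K : Set (GL (Fin n) ℂ)),
  IsCompact K ∧ π '' K = univ ∧
  (∀ g g', π g = π g' ↔ ∃ h : Matrix (Fin n) (Fin n) ℂ, UT h ∧ g.1 = h * g'.1) ∧
  ∀ z ∈ Hd ℂ (TopCat.of Z) (2 * Fintype.card (Pos n)), ∃ c : ℂ,
    z = c • (∏ p : Pos n, th.c (hL p.1.1 p.1.2).lb : th.E Z).1

/-- The spaces of the descent from `X1` to `X`: `F → X` is the flag bundle, `P → F` a projective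
bundle with the hyperplane `Q` at infinity and the affine part `E`, which is closed in `X1`. -/
structure Pk {d d1 : ℕ} (M : ℕ) (X : Vr d) (X1 : Vr d1) : Type 1 where
  dF : ℕ
  dE : ℕ
  dQ : ℕ
  F : Vr dF
  E : Vr dE
  P : Vr dE
  Q : Vr dQ
  eF : dF = d + (M + 1)
  eE : dE = dF + (M + 1)
  e1 : d1 = dE + (M + 1)
  eQ : dE = dQ + 1
  i : C(E.X, X1.X)
  j : C(E.X, P.X)
  ι : C(Q.X, P.X)
  p : C(P.X, F.X)
  π : C(F.X, X.X)
  σ : C(F.X, P.X)
  ai : Alg E.cp X1.cp i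
  aj : Alg E.cp P.cp j
  aι : Alg Q.cp P.cp ι
  ap : Alg P.cp F.cp p
  aπ : Alg F.cp X.cp π
  hσ : HolM dF dE σ
  ci : IsClosedEmbedding i
  cι : IsClosedEmbedding ι
  ej : Emb dE dE j (range ι)ᶜ
  pp : IsProperMap p
  pπ : IsProperMap π
  pσ : ∀ x, p (σ x) = x
  Λ : LB P.X
  fP : ∀ x, PFib Λ (p ⁻¹' {x}) (M + 1) 1
  fQ : ∀ x, PFib (Λ.pb ι) (p.comp ι ⁻¹' {x}) M 1
  tj : LB.Triv (Λ.pb j)
  Δ1 : H ℂ (TopCat.of X1.X)
  ΔF : H ℂ (TopCat.of F.X)
  g1 : Δ1 ∈ Hd ℂ (TopCat.of X1.X) (2 * (M + 1 : ℕ))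
  gF : ΔF ∈ Hd ℂ (TopCat.of F.X) (2 * (M + 1 : ℕ))
  off : th.Vn Δ1 (range i)ᶜ
  eq : P275S.pb (TopCat.ofHom i) Δ1 = P275S.pb (TopCat.ofHom (p.comp j)) ΔF
  sbm : ∀ x, ∃ y, π y = x ∧ Sbm dF d π y
  spn : Spn π (2 * (M + 1 : ℕ)) ΔF

theorem proper_of {E Q Q' K : Type} [TopologicalSpace E] [TopologicalSpace Q] [TopologicalSpace Q']
    [TopologicalSpace K] [CompactSpace K] {π : E → Q} (hπ : IsQuotientMap π) {p : Q' → Q}
    (hp : Continuous p) {m : K × E → Q'} (hm : Continuous m) (h1 : ∀ k e, p (m (k, e)) = π e)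
    (h2 : ∀ y e, p y = π e → ∃ k, y = m (k, e)) : IsProperMap p := by
  refine isProperMap_iff_isClosedMap_and_compact_fibers.2 ⟨hp, fun C hC => ?_, fun x => ?_⟩
  · rw [← hπ.isClosed_preimage]
    convert isClosedMap_snd_of_compactSpace _ (hC.preimage hm) using 1
    ext e
    constructor
    · rintro ⟨y, hy, k'⟩
      obtain ⟨k, rfl⟩ := h2 y e k'
      exact ⟨(k, e), hy, rfl⟩
    · rintro ⟨⟨k, e⟩, hy, rfl⟩
      exact ⟨_, hy, h1 k e⟩
  · obtain ⟨e, rfl⟩ := hπ.surjective x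
    convert isCompact_range (hm.comp (Continuous.prodMk_left e)) using 1
    ext y
    exact ⟨fun k => let ⟨k, e⟩ := h2 y e k; ⟨k, e.symm⟩, fun ⟨k, e'⟩ => e' ▸ h1 k e⟩

end Vale.Agent.P275CH
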