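import Vale.Agent.P275CH.Alg

/-!
# P275, descent of curious hard Lefschetz
-/

open scoped Manifold ContDiff
open Set Topology Function TopologicalSpace
open Vale.Agent.P272.K Vale.Agent.P281Z.Hg Vale.Agent.P275MC Vale.Agent.P275FM Vale.Agent.P275AR
open Vale.Agent.P281Z (HolM Emb)
open Vale.Agent.P275B (Mn Vr)
open Vale.Agent.P275LO (HC HD pc pc_pc pc_mem)
open P275CC (LB PFib Nc)
open P275S (th KG)
open P275LF (CHL)

noncomputable section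

namespace Vale.Agent.P275CH.Pk

variable {d d1 M : ℕ} {X : Vr d} {X1 : Vr d1} (K : Pk M X X1)

/-- the hyperplane class -/
def ζ : HC K.P.X := th.c1 K.Λ

/-- the affine bundle -/
def f : C(K.E.X, K.F.X) := K.p.comp K.j

/-- polynomials in the hyperplane class -/
def pl {m : ℕ} (a : Fin m → HC K.F.X) : HC K.P.X := ∑ k, pc K.p (a k) * K.ζ ^ (k : ℕ)

/-- Gysin map of the hyperplane -/
def gι : HC K.Q.X →ₗ[ℂ] HC K.P.X := gy (U := K.Q.toMn) (V := K.P.toMn) K.aι.hol K.cι.isProperMap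

/-- integration along the fibres of the projective bundle -/
def gp : HC K.P.X →ₗ[ℂ] HC K.F.X := gy (U := K.P.toMn) (V := K.F.toMn) K.ap.hol K.pp

theorem ζ_mem : K.ζ ∈ HD K.P.X 2 := P275S.c1_mem _

theorem ζ_cm (k : ℕ) (y : HC K.P.X) : K.ζ ^ k * y = y * K.ζ ^ k :=
  (Commute.pow_left (cm (U := K.P.toMn) K.ζ_mem (by decide) y) k).eq

theorem lhP : Bijective (K.pl (m := M + 2)) := th.lh K.p K.Λ (M + 1) 1 K.pp one_ne_zero K.fP

theorem lhQ (b : HC K.Q.X) : ∃ a : Fin (M + 1) → HC K.F.X, b = pc K.ι (K.pl a) := by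
  obtain ⟨a, rfl⟩ := (th.lh (K.p.comp K.ι) _ M 1 (K.pp.comp K.cι.isProperMap) one_ne_zero K.fQ).2 b
  refine ⟨a, ?_⟩
  simp only [pl, map_sum]
  refine Finset.sum_congr rfl fun k _ => ((map_mul _ _ _).trans (congrArg₂ _
    (pc_pc K.ι K.p _ (fun _ => rfl) _) ((map_pow _ _ _).trans ?_))).symm
  exact congrArg (· ^ (k : ℕ)) (th.c1_pb K.ι K.Λ).symm

theorem j_ζ : pc K.j K.ζ = 0 := (th.c1_pb K.j K.Λ).symm.trans (th.c1_triv _ K.tj)

theorem j_pl {m : ℕ} (a : Fin (m + 1) → HC K.F.X) : pc K.j (K.pl a) = pc K.f (a 0) := by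
  simp only [pl, Fin.sum_univ_succ, map_add, map_sum, map_mul, Fin.val_succ, pow_succ, j_ζ,
    mul_zero, Finset.sum_const_zero, add_zero, Fin.val_zero, pow_zero, mul_one]
  exact pc_pc K.j K.p K.f (fun _ => rfl) _

theorem ζ_pl {m : ℕ} (a : Fin m → HC K.F.X) : K.ζ * K.pl a = K.pl (Fin.cons 0 a) := by
  simp only [pl, Fin.sum_univ_succ, Fin.val_succ, pow_succ, ← mul_assoc, Finset.sum_mul,
    cm (U := K.P.toMn) K.ζ_mem (by decide), Fin.cons_zero, Fin.cons_succ, map_zero, zero_mul,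
    zero_add]

theorem pl_zero {m : ℕ} : K.pl (m := m) 0 = 0 := by
  simp only [pl, Pi.zero_apply, map_zero, zero_mul, Finset.sum_const_zero]

theorem ex_m : ∃ m ∈ HD K.Q.X 0, ∀ y, K.gι (m * pc K.ι y) = K.ζ * y := by
  obtain ⟨m, h, e⟩ := gy_ex (U := K.Q.toMn) (V := K.P.toMn) K.aι.hol K.cι (W := K.E.toMn) K.ej
    K.ζ_mem (by have := K.eQ; omega) K.j_ζ
  exact ⟨m, h, fun y => (gy_mul _ _ m y).trans (congrArg (· * y) e)⟩

theorem gι_spec : Injective K.gι ∧ ∀ b, ∃ a : Fin (M + 1) → HC K.F.X,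
    K.gι b = K.pl (Fin.cons 0 a) := by
  obtain ⟨m, -, e⟩ := K.ex_m
  have := fin_Hc K.Q.cp
  have : FiniteDimensional ℂ (HC K.Q.X) := (pd K.dQ K.Q.X).symm.finiteDimensional
  have h1 : Injective (K.gι ∘ₗ LinearMap.mulLeft ℂ m) := (injective_iff_map_eq_zero _).2 fun b h => by
    obtain ⟨a, rfl⟩ := K.lhQ b
    have := K.lhP.1 (a₂ := 0) (((K.ζ_pl a).symm.trans ((e _).symm.trans h)).trans K.pl_zero.symm)
    rw [show a = 0 from funext fun k => congrFun this k.succ, pl_zero, map_zero]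
  have h2 := LinearMap.injective_iff_surjective.1 (Injective.of_comp (f := K.gι) h1)
  refine ⟨Injective.of_comp_right (f := K.gι) h1 h2, fun b => ?_⟩
  obtain ⟨b, rfl⟩ := h2 b
  obtain ⟨a, rfl⟩ := K.lhQ b
  exact ⟨a, (e _).trans (K.ζ_pl a)⟩

theorem j_surj : Surjective (pc K.j) := fun y => by
  have h := act_univ (smo_of_hol K.aι.hol) K.cι.isProperMap
  obtain ⟨x, e⟩ := (gex_V _ K.cι (oe_of_emb K.ej) K.ej.rng (ori_of_emb K.ej) y).1
    (K.gι_spec.1 (((gex_Z _ K.cι (oe_of_emb K.ej) K.ej.rng h _).2 ⟨y, rfl⟩).trans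
      (map_zero _).symm))
  exact ⟨x, e.symm⟩

theorem f_bij : Bijective (pc K.f) := by
  refine ⟨(injective_iff_map_eq_zero _).2 fun z h => ?_, fun y => ?_⟩
  · have h1 : pc K.j (K.pl (m := M + 2) (Fin.cons z 0)) = 0 := (K.j_pl _).trans h
    obtain ⟨b, e⟩ := (gex_M _ K.cι (oe_of_emb K.ej) K.ej.rng (ori_of_emb K.ej)
      (act_univ (smo_of_hol K.aι.hol) K.cι.isProperMap) _).1 h1
    obtain ⟨a, e'⟩ := K.gι_spec.2 b
    exact congrFun (K.lhP.1 (e.trans e')) 0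
  · obtain ⟨x, rfl⟩ := K.j_surj y
    obtain ⟨a, rfl⟩ := K.lhP.2 x
    exact ⟨_, (K.j_pl a).symm⟩

theorem gp_pow (a : HC K.F.X) (k : ℕ) : K.gp (pc K.p a * K.ζ ^ k) = K.gp (K.ζ ^ k) * a :=
  K.ζ_cm k _ ▸ gy_mul _ _ _ a

theorem gp_mem (k : ℕ) : K.gp (K.ζ ^ k) ∈ HD K.F.X (2 * k - 2 * (M + 1 : ℕ)) :=
  gy_mem _ _ (P275S.pow_mem_Hd K.ζ_mem k) (by have := K.eE; omega)

theorem gp_low (a : HC K.F.X) (k : ℕ) (h : k < M + 1) : K.gp (pc K.p a * K.ζ ^ k) = 0 := by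
  rw [gp_pow, P275S.eq_zero_of_neg (by omega) (K.gp_mem k), zero_mul]

theorem gp_top : ∃ z ∈ HD K.F.X 0, ∀ a, K.gp (pc K.p a * K.ζ ^ (M + 1)) * z = a := by
  have hu : K.gp (K.ζ ^ (M + 1)) ∈ HD K.F.X 0 := by simpa using K.gp_mem (M + 1)
  have h1 : IsProperMap (K.p ∘ K.σ) := by
    rw [show K.p ∘ K.σ = id from funext K.pσ]
    exact isProperMap_id
  have hp := isProperMap_of_comp_of_t2 K.σ.continuous K.p.continuous h1
  obtain ⟨a, e⟩ := K.lhP.2 (gy (U := K.F.toMn) (V := K.P.toMn) K.hσ hp 1)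
  have h2 : K.gp (K.pl a) = 1 := by
    have k := act_univ (smo_of_hol (K.ap.hol.comp K.hσ)) h1
    exact e ▸ (gys_comp _ _ k 1).symm.trans (gys_id k K.pσ 1)
  rw [pl, map_sum, Fin.sum_univ_castSucc, Finset.sum_eq_zero fun k _ => K.gp_low _ _ k.2, zero_add,
    gp_pow, Fin.val_last, cm (U := K.F.toMn) hu (by decide)] at h2
  obtain ⟨z, h3, h4⟩ := inv0 (U := K.F.toMn) hu h2
  refine ⟨z, h3, fun a => ?_⟩
  rw [gp_pow, cm (U := K.F.toMn) hu (by decide), mul_assoc, cm (U := K.F.toMn) hu (by decide), h4,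
    mul_one]

variable (push : PUSH)
include push

theorem f_str {w : ℤ} {z : HC K.F.X} (h : pc K.f z ∈ WT K.E.cp w) : z ∈ WT K.F.cp w := by
  obtain ⟨m, h1, h2⟩ := K.ex_m
  obtain ⟨u, h3, h4⟩ := K.gp_top
  obtain ⟨x, h5, h6⟩ := WT_lift K.aj K.ej (pc K.p z) ((pc_pc K.j K.p K.f (fun _ => rfl) z).symm ▸ h)
  obtain ⟨a, rfl⟩ := K.lhP.2 x
  rw [← K.f_bij.1 ((K.j_pl a).symm.trans (h6.trans (pc_pc K.j K.p K.f (fun _ => rfl) z)))]
  refine tri_low (N := M + 1) (G := K.gp) (push _ _ _ _ K.p K.ap)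
    (fun w b hb => WT_gy K.ap K.pp (by have := K.eE; omega) hb) (fun w b hb => ?_) K.gp_low
    (fun w a ha => h4 a ▸ WT_mul h3 ha) _ le_rfl a h5
  rw [← cm (U := K.P.toMn) K.ζ_mem (by decide), ← h2, cm (U := K.Q.toMn) h1 (by decide)]
  exact WT_gy K.aι _ (by have := K.eQ; omega) (WT_mul h1 (push _ _ _ _ K.ι K.aι _ _ hb))

/-- **Descent** -/
theorem desc (loc : LOC) {e : HC X.X} {e1 : HC X1.X} (he : e ∈ HD X.X 2) (he1 : e1 ∈ HD X1.X 2)
    (ee : pc K.i e1 = pc K.f (pc K.π e)) {R : ℤ}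
    (h : CHL (LinearMap.mulLeft ℂ e1) (R + (M + 1 : ℕ)) (WT X1.cp)) :
    CHL (LinearMap.mulLeft ℂ e) R (WT X.cp) := by
  obtain ⟨m, h1, h2⟩ := gy_ex (U := K.E.toMn) (V := X1.toMn) K.ai.hol K.ci
    (W := { X := (⟨_, K.ci.isClosed_range.isOpen_compl⟩ : Opens X1.X) })
    (j := ⟨_, continuous_subtype_val⟩) (emb_val _) K.g1 (by have := K.e1; omega) K.off
  set gi := gy (U := K.E.toMn) (V := X1.toMn) K.ai.hol K.ci.isProperMap
  set gπ := gy (U := K.F.toMn) (V := X.toMn) K.aπ.hol K.pπ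
  have hv : gπ K.ΔF ∈ HD X.X 0 := gy_mem _ _ K.gF (by have := K.eF; omega)
  obtain ⟨v, h3⟩ := (loc _ _ _ X.toMn K.F.toMn K.π _ (act_univ (smo_of_hol K.aπ.hol) K.pπ) _ K.eF
    K.aπ.hol K.pπ K.sbm K.gF K.spn).exists_left_inv
  obtain ⟨v, h4, h5⟩ := inv0 (U := X.toMn) hv h3
  let φ := LinearEquiv.ofBijective (pc K.f).toLinearMap K.f_bij
  have h6 : ∀ a, φ.symm (pc K.f a) = a := φ.symm_apply_apply
  have h7 : ∀ a, pc K.f (φ.symm a) = a := φ.apply_symm_apply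
  have sf : ∀ b, pc K.i (gi b) = pc K.i (gi 1) * b := pb_gys K.ci _
  have c1 := cm (U := X1.toMn) he1 (by decide)
  have c0 := cm (U := X.toMn) he (by decide)
  refine h.retract
    (G := gi ∘ₗ LinearMap.mulRight ℂ m ∘ₗ (pc K.f).toLinearMap ∘ₗ (pc K.π).toLinearMap)
    (G' := LinearMap.mulRight ℂ v ∘ₗ gπ ∘ₗ φ.symm.toLinearMap ∘ₗ (pc K.i).toLinearMap)
    (fun w x hx => ?_) (fun w x hx => ?_) (fun x => ?_) (fun x => ?_) fun x => ?_
  · exact WT_gy K.ai K.ci.isProperMap (by have := K.e1; omega) (WT_mul h1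
      (push _ _ _ _ K.f (K.ap.comp K.aj) _ _ (push _ _ _ _ K.π K.aπ _ _ hx)))
  · have k : pc K.f (φ.symm (pc K.i x)) ∈ WT K.E.cp (w + 2 * (M + 1 : ℕ)) := by
      rw [h7]
      exact push _ _ _ _ K.i K.ai _ _ hx
    exact WT_mul h4 (WT_gy K.aπ K.pπ (by have := K.eF; omega) (K.f_str push k))
  · change gπ (φ.symm (pc K.i (gi (pc K.f (pc K.π x) * m)))) * v = x
    rw [sf, ← cm (U := K.E.toMn) h1 (by decide), ← mul_assoc, ← sf, h2,
      show pc K.i K.Δ1 = pc K.f K.ΔF from K.eq, ← map_mul, h6, gy_mul,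
      cm (U := X.toMn) hv (by decide), mul_assoc, cm (U := X.toMn) hv (by decide), h5, mul_one]
  · change gi (pc K.f (pc K.π (e * x)) * m) = e1 * gi (pc K.f (pc K.π x) * m)
    rw [c1, ← gy_mul, map_mul (pc K.π), map_mul (pc K.f), ← ee, mul_assoc,
      cm (U := K.E.toMn) (pc_mem _ he1) (by decide)]
  · change gπ (φ.symm (pc K.i (e1 * x))) * v = e * (gπ (φ.symm (pc K.i x)) * v)
    rw [← mul_assoc, c0, c1, map_mul (pc K.i), ee, ← h7 (pc K.i x), ← map_mul (pc K.f), h6, h6,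
      gy_mul]

end Vale.Agent.P275CH.Pk
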