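import Vale.Agent.P275CH.Defs
import Vale.Agent.P275BW.Fam
import Vale.Agent.P275GQ.Bx
import Vale.Agent.P275QV.Var
import Vale.Agent.P275OM.Fm

/-!
# P275, descent of curious hard Lefschetz: the spaces
-/

open Set Topology Function Matrix Sum
open P275BC hiding mt
open P275QV Vale.Agent.P275BW
open Vale.Agent.P275OM (Mx Sc)
open Vale.Agent.P275ST (Rep XB zeta dimR)
open Vale.Agent.P275XB (Ok ix ep mem_range_ep ep_inj dimZ cX)
open Vale.Agent.P281Z (HolM Emb Sbm)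
open Vale.Agent.P275RG (Alg)
open Vale.Agent.P275B (Vr)
open P275CC (LB PFib Nc)
open P275S (th)

noncomputable section

namespace Vale.Agent.P275CH

variable {n g r : ℕ} {d : ℤ}

/-- coordinates of a matrix and a tuple -/
abbrev Ii (n g : ℕ) : Type := (Fin n × Fin n) ⊕ Ix n g

/-- the matrix -/
def vm (y : Ii n g → ℂ) : Mx n := of fun a b => y (inl (a, b))

/-- the point with given matrix and tuple -/
def pt (v : Mx n) (x : Ix n g → ℂ) : Ii n g → ℂ := Sum.elim (fun p => v p.1 p.2) x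

theorem vm_pt (v : Mx n) (x : Ix n g → ℂ) : vm (pt v x) = v := rfl

theorem pt_inr (v : Mx n) (x : Ix n g → ℂ) : pt v x ∘ inr = x := rfl

theorem pt_vm (y : Ii n g → ℂ) : pt (vm y) (y ∘ inr) = y := funext fun i => by cases i <;> rfl

theorem cont_vm : Continuous (vm : (Ii n g → ℂ) → Mx n) :=
  continuous_matrix fun _ _ => continuous_apply _

theorem cont_pt {Y : Type} [TopologicalSpace Y] {v : Y → Mx n} {x : Y → Ix n g → ℂ}
    (hv : Continuous v) (hx : Continuous x) : Continuous fun y => pt (v y) (x y) :=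
  continuous_pi fun i => by
    rcases i with i | i
    · exact hv.matrix_elem _ _
    · exact (continuous_apply i).comp hx

variable (g d) in
/-- the total space -/
abbrev EV (V : Submodule ℂ (Mx n)) : Type :=
  {y : Ii n g → ℂ // vm y ∈ V ∧ vm y ≠ 0 ∧ y ∘ inr ∈ Rz n g (zeta n d)}

/-- `y` is the image of `y'` under `(h, t)` -/
def Rl (h : Mx n) (t : ℂ) (y y' : Ii n g → ℂ) : Prop :=
  UT h ∧ h.det ≠ 0 ∧ t ≠ 0 ∧ vm y = t • (h * vm y' * h⁻¹) ∧ y ∘ inr = cjx h h⁻¹ (y' ∘ inr)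

theorem cjx_one (x : Ix n g → ℂ) : cjx 1 (1 : Mx n)⁻¹ x = x := by
  funext i
  simp [cjx, P275BC.mt]

theorem cjx_mul (h h' : Mx n) (x : Ix n g → ℂ) :
    cjx (h * h') (h * h')⁻¹ x = cjx h h⁻¹ (cjx h' h'⁻¹ x) := by
  funext i
  rw [cjx, cjx, mt_cjx, Matrix.mul_inv_rev]
  simp only [Matrix.mul_assoc]

variable {h h' : Mx n} {t t' : ℂ} {y y' y'' : Ii n g → ℂ}

theorem Rl.refl (y : Ii n g → ℂ) : Rl 1 1 y y :=
  ⟨fun _ _ e => one_apply_ne e.ne', by simp, one_ne_zero, by simp, (cjx_one _).symm⟩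

theorem Rl.trans (k : Rl h t y y') (k' : Rl h' t' y' y'') : Rl (h * h') (t * t') y y'' :=
  ⟨fun _ _ e => k.1.bt.mul k'.1.bt e, (det_mul _ _).trans_ne (mul_ne_zero k.2.1 k'.2.1),
    mul_ne_zero k.2.2.1 k'.2.2.1, by
      rw [k.2.2.2.1, k'.2.2.2.1, Matrix.mul_inv_rev]
      simp only [Matrix.mul_smul, Matrix.smul_mul, smul_smul, Matrix.mul_assoc], by
      rw [k.2.2.2.2, k'.2.2.2.2, cjx_mul]⟩

theorem Rl.symm (k : Rl h t y y') : Rl h⁻¹ t⁻¹ y' y := by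
  have e := nonsing_inv_mul h k.2.1.isUnit
  refine ⟨ut_inv k.1 k.2.1, det_inv_ne k.2.1, inv_ne_zero k.2.2.1, ?_, ?_⟩
  · rw [k.2.2.2.1, nonsing_inv_nonsing_inv _ k.2.1.isUnit]
    simp only [Matrix.mul_smul, Matrix.smul_mul, smul_smul, inv_mul_cancel₀ k.2.2.1, one_smul,
      ← Matrix.mul_assoc, e, Matrix.one_mul]
    rw [Matrix.mul_assoc, e, Matrix.mul_one]
  · rw [k.2.2.2.2, ← cjx_mul, e, cjx_one]

variable (g d) in
/-- the projective bundle with fibre `P(V)` over the flag bundle -/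
def Pq (V : Submodule ℂ (Mx n)) : Type := Quot fun y y' : EV g d V => ∃ h t, Rl h t y.1 y'.1

variable {V V' : Submodule ℂ (Mx n)}

instance : TopologicalSpace (Pq g d V) := inferInstanceAs (TopologicalSpace (Quot _))

/-- the quotient map -/
def mk (y : EV g d V) : Pq g d V := Quot.mk _ y

theorem mk_quo : IsQuotientMap (mk : EV g d V → _) := isQuotientMap_quot_mk

theorem mk_eq {y y' : EV g d V} : mk y = mk y' ↔ ∃ h t, Rl h t y.1 y'.1 :=
  Quot.eq.trans (Equivalence.eqvGen_iff ⟨fun y => ⟨_, _, .refl y.1⟩, fun ⟨_, _, k⟩ => ⟨_, _, k.symm⟩,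
    fun ⟨_, _, k⟩ ⟨_, _, k'⟩ => ⟨_, _, k.trans k'⟩⟩)

/-- the tautological character -/
def Tt (y y' : EV g d V) (c : ℂ) : Prop := ∃ h, Rl h c⁻¹ y.1 y'.1

/-- the roots -/
def Tl (a b : Fin n) (y y' : EV g d V) (c : ℂ) : Prop :=
  ∃ h t, Rl h t y.1 y'.1 ∧ c = h a a / h b b

/-- a map on the quotient -/
def lft {Y : Type} [TopologicalSpace Y] (f : EV g d V → Y) (hf : Continuous f)
    (e : ∀ y y' h t, Rl h t y.1 y'.1 → f y = f y') : C(Pq g d V, Y) :=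
  ⟨Quot.lift f fun y y' ⟨h, t, k⟩ => e y y' h t k, continuous_quot_lift _ hf⟩

/-- the inclusion of a subbundle -/
def inc (k : V ≤ V') : C(Pq g d V, Pq g d V') :=
  lft (fun y => mk ⟨y.1, k y.2.1, y.2.2⟩)
    (mk_quo.continuous.comp (continuous_subtype_val.subtype_mk _)) fun _ _ h t e => mk_eq.2 ⟨h, t, e⟩

/-- the section given by a stable line -/
def sec (V : Submodule ℂ (Mx n)) {v : Mx n} (h1 : v ∈ V') (h2 : v ≠ 0)
    (h3 : ∀ h, UT h → h.det ≠ 0 → ∃ t : ℂ, t ≠ 0 ∧ v = t • (h * v * h⁻¹)) :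
    C(Pq g d V, Pq g d V') :=
  lft (fun y => mk ⟨pt v (y.1 ∘ inr), h1, h2, y.2.2.2⟩)
    (mk_quo.continuous.comp ((cont_pt continuous_const
      (continuous_pi fun _ => (continuous_apply _).comp continuous_subtype_val)).subtype_mk _))
    fun _ _ h _ e => let ⟨t, k, k'⟩ := h3 h e.1 e.2.1
      mk_eq.2 ⟨h, t, e.1, e.2.1, k, k', e.2.2.2.2⟩

/-- the representation -/
def rep (x : Ix n g → ℂ) (k : x ∈ Rz n g (zeta n d)) : Rep g n d :=
  (mem_range_ep.2 ((ix.apply_symm_apply x).symm ▸ k)).choose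

theorem ix_rep (x : Ix n g → ℂ) (k : x ∈ Rz n g (zeta n d)) : ix (ep (rep x k)) = x :=
  (congrArg ix (mem_range_ep.2 ((ix.apply_symm_apply x).symm ▸ k)).choose_spec).trans
    (ix.apply_symm_apply x)

/-- scalars -/
def V1 (n : ℕ) : Submodule ℂ (Mx n) := ℂ ∙ 1

/-- strictly upper triangular matrices -/
def Vn (n : ℕ) : Submodule ℂ (Mx n) := Wσ id

/-- a regular diagonal matrix -/
def h0 (n : ℕ) : Mx n := diagonal fun a => (a : ℂ) + 1

/-- the span of `h0` and the strictly upper triangular matrices -/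
def V0 (n : ℕ) : Submodule ℂ (Mx n) := (ℂ ∙ h0 n) ⊔ Vn n

/-- the projection to the flag bundle -/
def prj (V : Submodule ℂ (Mx (r + 1))) : C(Pq g d V, Pq g d (V1 (r + 1))) :=
  sec V (Submodule.mem_span_singleton_self _) one_ne_zero fun h _ k =>
    ⟨1, one_ne_zero, by rw [one_smul, Matrix.mul_one, mul_nonsing_inv _ k.isUnit]⟩

variable (g d) in
/-- a structure of variety on `Pq g d V` -/
abbrev PV (V : Submodule ℂ (Mx n)) (m D : ℕ) : Type 1 :=
  BV m D (Subtype.val : EV g d V → _) (mk : EV g d V → _)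

/-- the variety of a locally closed set -/
def vr {κ : Type} [Fintype κ] {D : ℕ} {S : Set (κ → ℂ)} (W : Var D S) : Vr D :=
  { X := W.X, top := W.top, ch := W.cs, mf := W.mf, cp := W.c }

instance {D : ℕ} (W : Vr D) : Nc W.X := ⟨W.ch.locallyCompactSpace, inferInstance, inferInstance⟩

/-- the product of the positive roots -/
def dlt {E : Type} [TopologicalSpace E] {D : ℕ} (W : Vr D) {π : E → W.X}
    {T : Fin n → Fin n → E → E → ℂ → Prop} (hL : ∀ a b, Loc π (T a b)) : th.H W.X :=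
  (∏ p : Pos n, th.c (hL p.1.1 p.1.2).lb : th.E W.X).1

/-- stable under the Borel subgroup -/
def Bst (V : Submodule ℂ (Mx n)) : Prop := ∀ h, UT h → h.det ≠ 0 → ∀ v ∈ V, h * v * h⁻¹ ∈ V

/-- **BVX**: the bundles are varieties, and carry the line bundles -/
def BVX : Prop := ∀ (r g : ℕ) (d : ℤ) [Ok g (r + 1) d] (V : Submodule ℂ (Mx (r + 1))) (D : ℕ),
  Bst V → D + 1 = 2 * dimR g (r + 1) + Fintype.card (Pos (r + 1)) + Module.finrank ℂ V →
  (∃ m, Nonempty (PV g d V m D)) ∧ Loc (mk : EV g d V → _) Tt ∧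
    ∀ a b, Loc (mk : EV g d V → _) (Tl a b)

/-- **MAPS**: the maps between the bundles -/
def MAPS : Prop := ∀ (r g : ℕ) (d : ℤ) [Ok g (r + 1) d],
  (∀ (V V' : Submodule ℂ (Mx (r + 1))) m D m' D' (X : PV g d V m D) (X' : PV g d V' m' D'),
    (∀ k : V ≤ V', Bst V →
      Alg X.vr.cp X'.vr.cp (inc k) ∧ IsClosedEmbedding (inc (g := g) (d := d) k)) ∧
    (∀ v h1 h2 h3, Alg X.vr.cp X'.vr.cp (sec V (v := v) h1 h2 h3))) ∧
  (∀ (V : Submodule ℂ (Mx (r + 1))) (k : ℕ) (hT : Loc (mk : EV g d V → _) Tt),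
    Bst V → Module.finrank ℂ V = k + 1 →
    IsProperMap (prj (g := g) (d := d) V) ∧ ∀ x, PFib hT.lb (prj V ⁻¹' {x}) k 1) ∧
  ∀ m D (X : PV g d (V1 (r + 1)) m D) (hL : ∀ a b, Loc (mk : EV g d (V1 (r + 1)) → _) (Tl a b)),
    ∃ π : C(X.vr.X, (vXB g (r + 1) d).X), (∀ y, π (mk y) = (rep _ y.2.2.2).pt) ∧
      Alg X.vr.cp (cX g (r + 1) d) π ∧ IsProperMap π ∧
      (∀ x, ∃ y, π y = x ∧ Sbm D (2 * dimR g (r + 1)) π y) ∧
      Spn π (2 * Fintype.card (Pos (r + 1))) (dlt X.vr hL)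

/-- **AFF**: the affine part of the projective bundle as a closed subvariety of `X1` -/
def AFF : Prop := ∀ (r g : ℕ) (d : ℤ) [Ok g (r + 1) d] (κ : Type) [Fintype κ]
  (q : κ → MvPolynomial (Ix (r + 1) g) ℂ) (d1 D : ℕ)
  (W1 : Var d1 (qm q '' Rt g fun _ => zeta (r + 1) d))
  (W : Var D (qm q '' Rz (r + 1) g (zeta (r + 1) d))) m (X : PV g d (V0 (r + 1)) m D)
  (hT : Loc (mk : EV g d (V0 (r + 1)) → _) Tt) m' D' (X' : PV g d (V1 (r + 1)) m' D')
  (hL : ∀ a b, Loc (mk : EV g d (V1 (r + 1)) → _) (Tl a b)),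
  QP (Orb (wA r g)) (Rt g fun _ => zeta (r + 1) d) q →
  ∃ (i : C((vr W).X, (vr W1).X)) (j : C((vr W).X, X.vr.X)) (Δ : th.H (vr W1).X),
    (∀ z, W1.ι (i z) = W.ι z) ∧
    (∀ z (y : EV g d (V0 (r + 1))), vm y.1 = h0 _ → qm q (y.1 ∘ inr) = W.ι z → j z = mk y) ∧
    Alg W.c W1.c i ∧ IsClosedEmbedding i ∧ Alg W.c X.vr.cp j ∧
    Emb D D j (range (inc (le_sup_right : Vn _ ≤ V0 _)))ᶜ ∧ LB.Triv (hT.lb.pb j) ∧
    th.Dg (2 * Fintype.card (Pos (r + 1))) Δ ∧ th.Vn Δ (range i)ᶜ ∧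
    th.pb i Δ = th.pb (show C(_, X'.vr.X) from (prj _).comp j) (dlt X'.vr hL)

end Vale.Agent.P275CH
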